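import Claimed.Agent.Sup.S0373.Cfc

/-! Support statement S0373: transport of the rotation model to `ℓ²(ℤ × ℤ)`. -/

set_option autoImplicit false

open MeasureTheory Filter
open scoped ENNReal Topology
open Claims.C0320.Invariant233 Claims.C0320.Invariant233.WeightedShift
open Claimed.Agent.R182.Abs Claimed.Agent.R182.Rot
open Claims.C0317.ContinuousCircleWeight

namespace Claimed.Agent.S0373

noncomputable def hb (θ : ℝ) : HilbertBasis (ℤ × ℤ) ℂ Hc :=
  HilbertBasis.mkOfOrthogonalEqBot (orthonormal_bv θ) (by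
    rw [Submodule.eq_bot_iff]
    intro ξ hξ
    apply eq_zero_of_inner_bv θ
    intro mn
    exact hξ _ (Submodule.subset_span ⟨mn, rfl⟩))

noncomputable def Wm (θ : ℝ) : Hc ≃ₗᵢ[ℂ] TracialHilbert := (hb θ).repr

noncomputable def Phi (θ : ℝ) : (Hc →L[ℂ] Hc) ≃⋆ₐ[ℂ] Operator := (Wm θ).conjStarAlgEquiv

theorem Phi_apply (θ : ℝ) (T : Hc →L[ℂ] Hc) (y : TracialHilbert) :
    Phi θ T y = Wm θ (T ((Wm θ).symm y)) := rfl

noncomputable def Ut (θ : ℝ) : unitary Operator :=
  ⟨Phi θ Rotation.U, Unitary.map_mem (Phi θ) U_unitary⟩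

noncomputable def Vt (θ : ℝ) : unitary Operator :=
  ⟨Phi θ (Rotation.V θ), Unitary.map_mem (Phi θ) (V_unitary θ)⟩

theorem Ut_coe (θ : ℝ) : ((Ut θ : unitary Operator) : Operator) = Phi θ Rotation.U := rfl

theorem Vt_coe (θ : ℝ) : ((Vt θ : unitary Operator) : Operator) = Phi θ (Rotation.V θ) := rfl

theorem Ut_zpow (θ : ℝ) (m : ℤ) : ((Ut θ ^ m : unitary Operator) : Operator) = Phi θ (ShX m) :=
  zpow_coe_of_family (Ut θ) (fun m => Phi θ (ShX m)) (by rw [ShX_zero, map_one])
    (fun n => by rw [ShX_add_one, map_mul, Ut_coe]) m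

theorem Vt_zpow (θ : ℝ) (n : ℤ) : ((Vt θ ^ n : unitary Operator) : Operator) =
    Phi θ (Rotation.representation θ (fourier n)) :=
  zpow_coe_of_family (Vt θ) (fun n => Phi θ (Rotation.representation θ (fourier n)))
    (by rw [rep_fourier_zero, map_one])
    (fun n => by rw [rep_fourier_add_one, map_mul, Vt_coe]) n

theorem word_apply (θ : ℝ) (m n : ℤ) :
    ((Ut θ ^ m * Vt θ ^ n : unitary Operator) : Operator) (Wm θ vac) = Wm θ (bv θ (m, n)) := by
  rw [Submonoid.coe_mul, Ut_zpow, Vt_zpow, ← map_mul, Phi_apply,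
    LinearIsometryEquiv.symm_apply_apply]
  rfl

theorem bv_zero (θ : ℝ) : bv θ (0, 0) = vac := by
  unfold bv
  rw [ShX_zero, rep_fourier_zero]
  rfl

theorem isTracialRotation (θ : ℝ) : IsTracialRotation θ (Ut θ) (Vt θ) (Wm θ vac) where
  relation := by
    rw [Ut_coe, Vt_coe, ← map_mul, ← map_mul, VU_relation, map_smul]
  moments := by
    intro m n
    rw [word_apply, LinearIsometryEquiv.inner_map_map]
    nth_rewrite 1 [← bv_zero θ]
    rw [inner_bv]
    by_cases h : m = 0 ∧ n = 0
    · rw [if_pos h, if_pos (by rw [h.1, h.2])]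
    · rw [if_neg h, if_neg]
      intro h'
      exact h ⟨(congrArg Prod.fst h').symm, (congrArg Prod.snd h').symm⟩
  cyclic := by
    rw [Submodule.topologicalClosure_eq_top_iff, Submodule.eq_bot_iff]
    intro y hy
    have h0 : (Wm θ).symm y = 0 := eq_zero_of_inner_bv θ _ (fun mn => by
      have h1 := hy _ (Submodule.subset_span ⟨mn, rfl⟩)
      simp only at h1
      rw [word_apply] at h1
      rw [← LinearIsometryEquiv.inner_map_map (Wm θ), LinearIsometryEquiv.apply_symm_apply]
      exact h1)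
    simpa using h0

theorem continuous_Phi (θ : ℝ) : Continuous (Phi θ) := (StarAlgEquiv.isometry (Phi θ)).continuous

theorem weightedRotation_eq (θ : ℝ) (f : C(CircleX, ℝ)) :
    weightedRotation (Ut θ) (Vt θ) f = Phi θ (Rotation.weightedReal θ f) := by
  have hc : ContinuousOn (circleFunction f) (spectrum ℂ (Rotation.V θ)) :=
    (continuousOn_circleFunction f).mono (spectrum_subset_sphere _ (V_unitary θ))
  have hn : IsStarNormal (Rotation.V θ) := isStarNormal_of_mem_unitary (V_unitary θ)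
  have hn' : IsStarNormal (Phi θ (Rotation.V θ)) :=
    isStarNormal_of_mem_unitary (Unitary.map_mem (Phi θ) (V_unitary θ))
  have h := StarAlgHomClass.map_cfc (S := ℂ) (Phi θ) (circleFunction f) (Rotation.V θ) hc
    (continuous_Phi θ) hn hn'
  unfold weightedRotation
  rw [Ut_coe, Vt_coe, ← h, cfc_V, ← map_mul]
  rfl

theorem mem_algebra_of_mem (θ : ℝ) (p : Operator) (hp : p ∈ rotationAlgebra (Ut θ) (Vt θ)) :
    (Phi θ).symm p ∈ Rotation.algebra θ := by
  rw [Member_mem_algebra_iff]
  intro g hg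
  rw [StarSubalgebra.mem_centralizer_iff] at hg
  have h1 : Phi θ g ∈ Set.centralizer
      ({((Ut θ : unitary Operator) : Operator), ((Vt θ : unitary Operator) : Operator)} :
        Set Operator) := by
    rw [Set.mem_centralizer_iff]
    intro m hm
    rcases hm with rfl | hm
    · rw [Ut_coe, ← map_mul, ← map_mul, (hg Rotation.U (Set.mem_insert _ _)).1]
    · rw [Set.mem_singleton_iff] at hm
      subst hm
      rw [Vt_coe, ← map_mul, ← map_mul, (hg (Rotation.V θ) (Set.mem_insert_of_mem _ rfl)).1]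
  have h2 : Phi θ g * p = p * Phi θ g := (Set.mem_centralizer_iff.mp hp) _ h1
  have h3 := congrArg (Phi θ).symm h2
  rw [map_mul, map_mul, StarAlgEquiv.symm_apply_apply] at h3
  exact h3

end Claimed.Agent.S0373
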