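import Claimed.Agent.Sup.S0374.Center

/-! Support statement S0373: the orthonormal basis `U^m V^n vac` of `L²(circle; ℓ²(ℤ))`. -/

set_option autoImplicit false

open MeasureTheory Filter
open scoped ENNReal Topology
open Claims.C0320.Invariant233 Claims.C0320.Invariant233.WeightedShift
open Claimed.Agent.R182.Abs Claimed.Agent.R182.Rot

namespace Claimed.Agent.S0373

theorem circleMeasure_eq_haar :
    (circleMeasure : Measure Circ) = AddCircle.haarAddCircle := by
  unfold circleMeasure
  rw [AddCircle.volume_eq_smul_haarAddCircle]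
  simp

/-- powers of a unitary along a multiplicative family -/
theorem zpow_coe_of_family {A : Type*} [Monoid A] [StarMul A] (u : unitary A) (F : ℤ → A)
    (h0 : F 0 = 1) (hs : ∀ n, F (n + 1) = F n * (u : A)) (n : ℤ) :
    ((u ^ n : unitary A) : A) = F n := by
  induction n using Int.induction_on with
  | zero => simp [h0]
  | succ n ih =>
    rw [zpow_add_one, Submonoid.coe_mul, ih, hs]
  | pred n ih =>
    rw [zpow_sub_one, Submonoid.coe_mul, ih]
    have h := hs (-(n : ℤ) - 1)
    rw [sub_add_cancel] at h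
    rw [h, mul_assoc, ← Submonoid.coe_mul, mul_inv_cancel]
    simp

/-- the basis vectors -/
noncomputable def bv (θ : ℝ) (mn : ℤ × ℤ) : Hc :=
  ShX mn.1 (Rotation.representation θ (fourier mn.2) vac)

theorem bv_ae (θ : ℝ) (mn : ℤ × ℤ) : ∀ᵐ x ∂(circleMeasure : Measure Circ),
    bv θ mn x = (fourier mn.2 x : ℂ) • eF mn.1 := by
  filter_upwards [rep_ShX (μ := (circleMeasure : Measure Circ)) mn.1
    (Rotation.representation θ (fourier mn.2) vac),
    Claimed.Agent.S0374.rep_coord θ (fourier mn.2) vac, Claimed.Agent.S0374.vac_coord]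
    with x h1 h2 h3
  unfold bv
  rw [h1]
  simp only [id]
  ext k
  rw [Sf_apply, h2, h3, lp.coeFn_smul, Pi.smul_apply, smul_eq_mul]
  by_cases hk : k = mn.1
  · subst hk
    simp [eF_self]
  · rw [eF_ne hk, if_neg (sub_ne_zero.mpr hk), mul_zero, mul_zero]

theorem integral_fourier (k : ℤ) :
    ∫ x, (fourier k x : ℂ) ∂(circleMeasure : Measure Circ) = if k = 0 then 1 else 0 := by
  rw [circleMeasure_eq_haar]
  have h := (orthonormal_iff_ite.mp (orthonormal_fourier (T := (1 : ℝ)))) 0 k
  rw [fourierLp, fourierLp, ContinuousMap.inner_toLp] at h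
  simp only [fourier_zero, map_one, mul_one] at h
  rw [h]
  by_cases hk : k = 0
  · simp [hk]
  · simp [hk, Ne.symm hk]

theorem inner_bv (θ : ℝ) (a b : ℤ × ℤ) :
    inner ℂ (bv θ a) (bv θ b) = if a = b then 1 else 0 := by
  rw [L2.inner_def]
  have h : ∀ᵐ x ∂(circleMeasure : Measure Circ), inner ℂ (bv θ a x) (bv θ b x) =
      (if a.1 = b.1 then (fourier (b.2 - a.2) x : ℂ) else 0) := by
    filter_upwards [bv_ae θ a, bv_ae θ b] with x h1 h2
    rw [h1, h2, inner_smul_left, inner_smul_right, inner_eF_left]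
    by_cases h : a.1 = b.1
    · rw [h, eF_self, if_pos rfl, mul_one, sub_eq_add_neg, fourier_add, fourier_neg]
      ring
    · rw [eF_ne h, if_neg h, mul_zero, mul_zero]
  rw [integral_congr_ae h]
  by_cases h1 : a.1 = b.1
  · simp only [h1, if_true]
    rw [integral_fourier]
    by_cases h2 : a.2 = b.2
    · rw [if_pos (by rw [h2, sub_self]), if_pos (Prod.ext h1 h2)]
    · rw [if_neg (fun h => h2 (sub_eq_zero.mp h).symm), if_neg (fun h => h2 (congrArg Prod.snd h))]
  · simp only [h1, if_false, integral_zero]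
    rw [if_neg (fun h => h1 (congrArg Prod.fst h))]

theorem orthonormal_bv (θ : ℝ) : Orthonormal ℂ (bv θ) :=
  orthonormal_iff_ite.mpr (inner_bv θ)

theorem ae_zero_of_fourier (g : Circ → ℂ) (hg : MemLp g 2 (circleMeasure : Measure Circ))
    (h : ∀ n : ℤ, ∫ x, (fourier (-n) x : ℂ) * g x ∂(circleMeasure : Measure Circ) = 0) :
    g =ᵐ[(circleMeasure : Measure Circ)] 0 := by
  rw [circleMeasure_eq_haar] at hg h ⊢
  have hF : fourierBasis.repr (hg.toLp g) = 0 := by
    ext n
    rw [fourierBasis_repr]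
    have e : fourierCoeff (hg.toLp g) n = ∫ x, (fourier (-n) x : ℂ) * g x
        ∂(AddCircle.haarAddCircle : Measure Circ) := by
      unfold fourierCoeff
      refine integral_congr_ae ?_
      filter_upwards [hg.coeFn_toLp] with x hx
      rw [hx, smul_eq_mul]
    rw [e, h n]
    rfl
  have h0 : hg.toLp g = 0 := by
    have := congrArg (fourierBasis (T := (1 : ℝ))).repr.symm hF
    simpa using this
  have h1 := hg.coeFn_toLp
  rw [h0] at h1
  exact h1.symm.trans (Lp.coeFn_zero ℂ 2 _)

theorem eq_zero_of_inner_bv (θ : ℝ) (ξ : Hc) (h : ∀ mn, inner ℂ (bv θ mn) ξ = 0) : ξ = 0 := by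
  apply Model.eq_zero_of_coord
  intro m
  have hg : MemLp (fun x => ξ x m) 2 (circleMeasure : Measure Circ) :=
    (lp.evalCLM ℂ (fun _ : ℤ => ℂ) 2 m).comp_memLp' (Lp.memLp ξ)
  refine ae_zero_of_fourier _ hg (fun n => ?_)
  have h1 := h (m, n)
  rw [L2.inner_def] at h1
  rw [← h1]
  refine integral_congr_ae ?_
  filter_upwards [bv_ae θ (m, n)] with x hx
  rw [hx, inner_smul_left, inner_eF_left, fourier_neg]

end Claimed.Agent.S0373
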