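import Claimed.Agent.Sup.S0373.Ops
import Claimed.Prelude.Def_0317

/-! Support statement S0373: the functional calculus `f(V)`. -/

set_option autoImplicit false

open MeasureTheory Filter
open scoped ENNReal Topology
open Claims.C0320.Invariant233 Claims.C0320.Invariant233.WeightedShift
open Claimed.Agent.R182.Abs Claimed.Agent.R182.Rot
open Claims.C0317.ContinuousCircleWeight

namespace Claimed.Agent.S0373

theorem continuousOn_circleFunction (f : C(CircleX, ℝ)) :
    ContinuousOn (circleFunction f) (Metric.sphere (0 : ℂ) 1) := by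
  rw [continuousOn_iff_continuous_domRestrict]
  have h : (Metric.sphere (0 : ℂ) 1).domRestrict (circleFunction f) =
      fun z => ((f (circleIdentification.symm ⟨z.1, z.2⟩) : ℝ) : ℂ) := by
    ext z
    have hz : ‖(z : ℂ)‖ = 1 := mem_sphere_zero_iff_norm.mp z.2
    simp [Set.domRestrict, circleFunction, hz]
  rw [h]
  have h1 : Continuous fun z : Metric.sphere (0 : ℂ) 1 => (⟨z.1, z.2⟩ : _root_.Circle) :=
    continuous_induced_rng.2 continuous_subtype_val
  exact Complex.continuous_ofReal.comp (f.continuous.comp (circleIdentification.symm.continuous.comp h1))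

theorem circleFunction_fourier (f : C(CircleX, ℝ)) (x : CircleX) :
    circleFunction f (fourier 1 x) = ((f x : ℝ) : ℂ) := by
  have hz : ‖(fourier 1 x : ℂ)‖ = 1 := Claimed.Agent.S0374.norm_fourier_one x
  unfold circleFunction
  rw [dif_pos hz]
  congr 2
  apply circleIdentification.injective
  refine (circleIdentification.apply_symm_apply _).trans ?_
  apply Circle.ext
  show (fourier 1 x : ℂ) = ((circleIdentification x : _root_.Circle) : ℂ)
  rw [fourier_one]
  unfold circleIdentification
  rw [AddCircle.homeomorphCircle_apply]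

theorem spectrum_subset_sphere {A : Type*} [CStarAlgebra A] (u : A) (hu : u ∈ unitary A) :
    spectrum ℂ u ⊆ Metric.sphere (0 : ℂ) 1 :=
  spectrum.subset_circle_of_unitary hu

theorem fourier_one_unitary : (fourier 1 : C(Circ, ℂ)) ∈ unitary C(Circ, ℂ) := by
  have e : star (fourier 1 : C(Circ, ℂ)) = fourier (-1) := by
    ext x
    rw [ContinuousMap.star_apply, fourier_neg]
    rfl
  have e1 : (fourier (-1) : C(Circ, ℂ)) * fourier 1 = 1 := by
    ext x
    rw [ContinuousMap.mul_apply, ← fourier_add]
    simp
  have e2 : (fourier 1 : C(Circ, ℂ)) * fourier (-1) = 1 := by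
    rw [mul_comm, e1]
  rw [Unitary.mem_iff, e, e1, e2]
  exact ⟨rfl, rfl⟩

theorem cfc_character (f : C(CircleX, ℝ)) :
    cfc (circleFunction f) (fourier 1 : C(Circ, ℂ)) = Rotation.complexWeight f := by
  have hc : ContinuousOn (circleFunction f) (spectrum ℂ (fourier 1 : C(Circ, ℂ))) :=
    (continuousOn_circleFunction f).mono (spectrum_subset_sphere _ fourier_one_unitary)
  ext x
  have h := (ContinuousMap.evalStarAlgHom ℂ ℂ x).map_cfc (circleFunction f)
    (fourier 1 : C(Circ, ℂ)) hc (continuous_eval_const x)
  have h1 : (ContinuousMap.evalStarAlgHom ℂ ℂ x) (fourier 1 : C(Circ, ℂ)) =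
      algebraMap ℂ ℂ (fourier 1 x) := rfl
  rw [h1, cfc_algebraMap, circleFunction_fourier] at h
  exact h

theorem cfc_V (θ : ℝ) (f : C(CircleX, ℝ)) :
    cfc (circleFunction f) (Rotation.V θ) =
      Rotation.representation θ (Rotation.complexWeight f) := by
  have hc : ContinuousOn (circleFunction f) (spectrum ℂ (fourier 1 : C(Circ, ℂ))) :=
    (continuousOn_circleFunction f).mono (spectrum_subset_sphere _ fourier_one_unitary)
  have hn : IsStarNormal (repHom θ (fourier 1 : C(Circ, ℂ))) :=
    isStarNormal_of_mem_unitary (V_unitary θ)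
  have h := (repHom θ).map_cfc (circleFunction f) (fourier 1 : C(Circ, ℂ)) hc
    (continuous_representation θ) inferInstance hn
  rw [cfc_character] at h
  exact h.symm

end Claimed.Agent.S0373
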