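import Claimed.Agent.Sup.S0373.Basis

/-! Support statement S0373: the unitaries `U`, `V` on `L²(circle; ℓ²(ℤ))`. -/

set_option autoImplicit false

open MeasureTheory Filter
open scoped ENNReal Topology
open Claims.C0320.Invariant233 Claims.C0320.Invariant233.WeightedShift
open Claimed.Agent.R182.Abs Claimed.Agent.R182.Rot

namespace Claimed.Agent.S0373

theorem ShX_zero : (ShX 0 : Hc →L[ℂ] Hc) = 1 := by
  refine Rep.ext (rep_ShX 0) Bridge_rep_one (fun _ => rfl) (Eventually.of_forall fun x => ?_)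
  exact Bridge_Sf_zero

theorem ShX_mul (i j : ℤ) : (ShX i : Hc →L[ℂ] Hc) * ShX j = ShX (i + j) := by
  refine Rep.ext ((rep_ShX i).mul (rep_ShX j) (Measure.QuasiMeasurePreserving.id _)) (rep_ShX (i + j))
    (fun _ => rfl) (Eventually.of_forall fun x => ?_)
  exact Bridge_Sf_comp i j

theorem ShX_add_one (m : ℤ) : (ShX (m + 1) : Hc →L[ℂ] Hc) = ShX m * Rotation.U := by
  rw [U_eq, ShX_mul]

theorem U_mul_star_U : (Rotation.U : Hc →L[ℂ] Hc) * star Rotation.U = 1 := by
  have h1 : (Rotation.U : Hc →L[ℂ] Hc) * ShX (-1) = 1 := by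
    rw [U_eq, ShX_mul, add_neg_cancel, ShX_zero]
  have h2 : star (Rotation.U : Hc →L[ℂ] Hc) = ShX (-1) := by
    calc star (Rotation.U : Hc →L[ℂ] Hc) = star Rotation.U * (Rotation.U * ShX (-1)) := by
          rw [h1, mul_one]
      _ = ShX (-1) := by rw [← mul_assoc, Member_star_U_mul_U, one_mul]
  rw [h2, h1]

theorem U_unitary : (Rotation.U : Hc →L[ℂ] Hc) ∈ unitary (Hc →L[ℂ] Hc) :=
  Unitary.mem_iff.mpr ⟨Member_star_U_mul_U, U_mul_star_U⟩

theorem fourier_zero_eq : (fourier 0 : C(Circ, ℂ)) = 1 := by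
  ext x
  simp

theorem rep_fourier_zero (θ : ℝ) : Rotation.representation θ (fourier 0) = 1 := by
  rw [fourier_zero_eq, representation_one]

theorem rep_fourier_add_one (θ : ℝ) (n : ℤ) :
    Rotation.representation θ (fourier (n + 1)) =
      Rotation.representation θ (fourier n) * Rotation.V θ := by
  have e : (fourier (n + 1) : C(Circ, ℂ)) = fourier n * fourier 1 := by
    ext x
    rw [ContinuousMap.mul_apply, fourier_add]
  rw [e, representation_mul]
  rfl

theorem V_unitary (θ : ℝ) : Rotation.V θ ∈ unitary (Hc →L[ℂ] Hc) := by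
  have e : star (fourier 1 : C(Circ, ℂ)) = fourier (-1) := by
    ext x
    rw [ContinuousMap.star_apply, fourier_neg]
    rfl
  have e1 : (fourier (-1) : C(Circ, ℂ)) * fourier 1 = 1 := by
    ext x
    rw [ContinuousMap.mul_apply, ← fourier_add]
    simp
  have e2 : (fourier 1 : C(Circ, ℂ)) * fourier (-1) = 1 := by
    rw [mul_comm, e1]
  have hV : Rotation.V θ = Rotation.representation θ (fourier 1) := rfl
  rw [Unitary.mem_iff, hV, ← representation_star, e, ← representation_mul, ← representation_mul,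
    e1, e2, representation_one]
  exact ⟨rfl, rfl⟩

theorem ShX_coord (j : ℤ) (z : Hc) : ∀ᵐ x ∂(circleMeasure : Measure Circ), ∀ k : ℤ,
    (ShX j z) x k = z x (k - j) := by
  filter_upwards [rep_ShX (μ := (circleMeasure : Measure Circ)) j z] with x hx k
  rw [hx, Sf_apply]
  rfl

theorem VU_relation (θ : ℝ) : Rotation.V θ * Rotation.U =
    Complex.exp (2 * Real.pi * θ * Complex.I) • ((Rotation.U : Hc →L[ℂ] Hc) * Rotation.V θ) := by
  ext1 z
  apply Lp.ext
  have hV : Rotation.V θ = Rotation.representation θ (fourier 1) := rfl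
  change ((Rotation.V θ) (Rotation.U z) : Hc) =ᵐ[_]
    (Complex.exp (2 * Real.pi * θ * Complex.I) • (Rotation.U (Rotation.V θ z)) : Hc)
  rw [hV, U_eq]
  filter_upwards [Claimed.Agent.S0374.rep_coord θ (fourier 1) (ShX 1 z), ShX_coord 1 z,
    ShX_coord 1 (Rotation.representation θ (fourier 1) z),
    Claimed.Agent.S0374.rep_coord θ (fourier 1) z,
    Lp.coeFn_smul (Complex.exp (2 * Real.pi * θ * Complex.I))
      (ShX 1 (Rotation.representation θ (fourier 1) z))] with x h1 h2 h3 h4 h5
  ext k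
  rw [h5, Pi.smul_apply, lp.coeFn_smul, Pi.smul_apply, smul_eq_mul, h1, h2, h3, h4]
  have e : x + k • (θ : Circ) = (θ : Circ) + (x + (k - 1) • (θ : Circ)) := by
    rw [sub_smul, one_smul]
    abel
  rw [e, fourier_one, fourier_one, AddCircle.toCircle_add, Circle.coe_mul, ← mul_assoc]
  congr 2
  rw [AddCircle.toCircle_apply_mk, Circle.coe_exp]
  congr 1
  push_cast
  ring

end Claimed.Agent.S0373
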